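import Mathlib
import Vale.Agent.P036.Main

namespace Vale.Agent.Results.P036.PowerLowerBound

/-- area of the triangle with vertices `p`, `q`, `r` in the plane -/
noncomputable def area (p q r : ℝ × ℝ) : ℝ :=
  |(q.1 - p.1) * (r.2 - p.2) - (q.2 - p.2) * (r.1 - p.1)| / 2

/-- the minimum area of a triangle on three distinct points of `P` -/
noncomputable def minArea (P : Finset (ℝ × ℝ)) : ℝ :=
  sInf {a | ∃ p ∈ P, ∃ q ∈ P, ∃ r ∈ P, p ≠ q ∧ p ≠ r ∧ q ≠ r ∧ a = area p q r}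

/-- Heilbronn's function: the largest minimum area over `n`-point subsets of the unit square -/
noncomputable def Delta (n : ℕ) : ℝ :=
  sSup {d | ∃ P : Finset (ℝ × ℝ), P.card = n ∧
    (∀ x ∈ P, x.1 ∈ Set.Icc (0 : ℝ) 1 ∧ x.2 ∈ Set.Icc (0 : ℝ) 1) ∧ d = minArea P}

theorem result :
    (∃ η : ℝ, 0 < η ∧ ∃ n₀ : ℕ, ∀ n : ℕ, n₀ ≤ n → (n : ℝ) ^ (-2 + η) ≤ Delta n) ∧
    ¬ (∀ ε : ℝ, 0 < ε → ∃ C : ℝ, ∃ n₀ : ℕ, ∀ n : ℕ, n₀ ≤ n →
      Delta n ≤ C * (n : ℝ) ^ (-2 + ε)) := by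
  have main : ∃ η : ℝ, 0 < η ∧ ∃ n₀ : ℕ, ∀ n : ℕ, n₀ ≤ n → (n : ℝ) ^ (-2 + η) ≤ Delta n := by
    obtain ⟨η, hη, n₀, h⟩ := Vale.Agent.P036.planar
    refine ⟨η, hη, n₀ + 3, fun n hn => ?_⟩
    obtain ⟨P, h1, h2, h3⟩ := h n (by omega)
    have hne : ∀ Q : Finset (ℝ × ℝ), Q.card = n → ∃ p ∈ Q, ∃ q ∈ Q, ∃ r ∈ Q,
        p ≠ q ∧ p ≠ r ∧ q ≠ r := fun Q hQ => Finset.two_lt_card.1 (by omega)
    have hle : (n : ℝ) ^ (-2 + η) ≤ minArea P := by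
      obtain ⟨p, hp, q, hq, r, hr, a, b, c⟩ := hne P h1
      refine le_csInf ⟨_, p, hp, q, hq, r, hr, a, b, c, rfl⟩ ?_
      rintro _ ⟨p, hp, q, hq, r, hr, a, b, c, rfl⟩
      exact h3 p hp q hq r hr a b c
    refine hle.trans (le_csSup ⟨1, ?_⟩ ⟨P, h1, h2, rfl⟩)
    rintro _ ⟨Q, q1, q2, rfl⟩
    obtain ⟨p, hp, q, hq, r, hr, a, b, c⟩ := hne Q q1
    refine le_trans (csInf_le ⟨0, ?_⟩ ⟨p, hp, q, hq, r, hr, a, b, c, rfl⟩) ?_
    · rintro _ ⟨p, -, q, -, r, -, -, -, -, rfl⟩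
      unfold area; positivity
    · obtain ⟨⟨a1, a2⟩, a3, a4⟩ := q2 p hp
      obtain ⟨⟨b1, b2⟩, b3, b4⟩ := q2 q hq
      obtain ⟨⟨c1, c2⟩, c3, c4⟩ := q2 r hr
      have k : ∀ x y : ℝ, |x| ≤ 1 → |y| ≤ 1 → |x * y| ≤ 1 := fun x y hx hy => by
        rw [abs_mul]; exact mul_le_one₀ hx (abs_nonneg _) hy
      have k1 := k (q.1 - p.1) (r.2 - p.2) (abs_le.2 ⟨by linarith, by linarith⟩)
        (abs_le.2 ⟨by linarith, by linarith⟩)
      have k2 := k (q.2 - p.2) (r.1 - p.1) (abs_le.2 ⟨by linarith, by linarith⟩)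
        (abs_le.2 ⟨by linarith, by linarith⟩)
      have := abs_sub ((q.1 - p.1) * (r.2 - p.2)) ((q.2 - p.2) * (r.1 - p.1))
      unfold area
      linarith
  refine ⟨main, fun H => ?_⟩
  obtain ⟨η, hη, n₀, h⟩ := main
  obtain ⟨C, n₁, h'⟩ := H (η / 2) (by positivity)
  have ht : Filter.Tendsto (fun n : ℕ => (n : ℝ) ^ (η / 2)) Filter.atTop Filter.atTop :=
    (tendsto_rpow_atTop (by positivity)).comp tendsto_natCast_atTop_atTop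
  obtain ⟨n, hn1, hn2⟩ := ((ht.eventually_gt_atTop C).and
    (Filter.eventually_ge_atTop (n₀ + n₁ + 1))).exists
  have hnR : (0 : ℝ) < n := by exact_mod_cast (show 0 < n by omega)
  have h1 := (h n (by omega)).trans (h' n (by omega))
  rw [show -2 + η = η / 2 + (-2 + η / 2) by ring, Real.rpow_add hnR] at h1
  have := le_of_mul_le_mul_right h1 (Real.rpow_pos_of_pos hnR _)
  linarith

end Vale.Agent.Results.P036.PowerLowerBound
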